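import Vale.Agent.P154.Ferro4.KAssembly
import Vale.Agent.P154.Ferro4.KCells.Part0

/-!
P154, four states: kernel checks of cells of the closure certificate.
-/

namespace Vale.Agent.P154.Ferro4

open PolyCheck KAssembly

theorem kCell_0_2 : kCellOK 0 2 (fun _ _ => .leaf 0) = true := by decide +kernel

theorem kCell_1_3 : kCellOK 1 3 (fun _ _ => .leaf 0) = true := by decide +kernel

theorem kCell_2_5 : kCellOK 2 5 (fun _ _ => .leaf 0) = true := by decide +kernel

theorem kCell_3_8 : kCellOK 3 8 (fun _ _ => .leaf 0) = true := by decide +kernel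

theorem kCell_4_12 : kCellOK 4 12 (fun _ _ => .leaf 0) = true := by decide +kernel

theorem kCell_6_9 : kCellOK 6 9 (fun _ _ => .leaf 0) = true := by decide +kernel

theorem kCell_8_10 : kCellOK 8 10 (fun _ _ => .leaf 0) = true := by decide +kernel

theorem kCell_11_12 : kCellOK 11 12 (fun _ _ => .leaf 0) = true := by decide +kernel

end Vale.Agent.P154.Ferro4
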