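import Vale.Agent.P154.Ferro4.KAssembly
import Vale.Agent.P154.Ferro4.KCells.Part5

/-!
P154, four states: kernel checks of cells of the closure certificate.
-/

namespace Vale.Agent.P154.Ferro4

open PolyCheck KAssembly

theorem kCell_0_7 : kCellOK 0 7 (fun _ _ => .leaf 0) = true := by decide +kernel

theorem kCell_1_8 : kCellOK 1 8 (fun _ _ => .leaf 0) = true := by decide +kernel

theorem kCell_2_10 : kCellOK 2 10 (fun _ _ => .leaf 0) = true := by decide +kernel

theorem kCell_3_13 : kCellOK 3 13 (fun _ _ => .leaf 0) = true := by decide +kernel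

theorem kCell_5_8 : kCellOK 5 8 (fun _ _ => .leaf 0) = true := by decide +kernel

theorem kCell_7_7 : kCellOK 7 7 (fun _ _ => .leaf 0) = true := by decide +kernel

theorem kCell_9_10 : kCellOK 9 10 (fun _ _ => .leaf 0) = true := by decide +kernel

end Vale.Agent.P154.Ferro4
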