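import Vale.Agent.P154.Ferro4.KAssembly
import Vale.Agent.P154.Ferro4.KCells.Part10

/-!
P154, four states: kernel checks of cells of the closure certificate.
-/

namespace Vale.Agent.P154.Ferro4

open PolyCheck KAssembly

theorem kCell_0_12 : kCellOK 0 12 (fun _ _ => .leaf 0) = true := by decide +kernel

theorem kCell_1_13 : kCellOK 1 13 (fun _ _ => .leaf 0) = true := by decide +kernel

theorem kCell_3_4 : kCellOK 3 4 (fun _ _ => .leaf 0) = true := by decide +kernel

theorem kCell_4_8 : kCellOK 4 8 (fun _ _ => .leaf 0) = true := by decide +kernel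

theorem kCell_5_13 : kCellOK 5 13 (fun _ _ => .leaf 0) = true := by decide +kernel

theorem kCell_7_12 : kCellOK 7 12 (fun _ _ => .leaf 0) = true := by decide +kernel

theorem kCell_10_11 : kCellOK 10 11 (fun _ _ => .leaf 0) = true := by decide +kernel

end Vale.Agent.P154.Ferro4
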