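import Vale.Agent.P154.Ferro4.KAssembly
import Vale.Agent.P154.Ferro4.KCells.Part11

/-!
P154, four states: kernel checks of cells of the closure certificate.
-/

namespace Vale.Agent.P154.Ferro4

open PolyCheck KAssembly

theorem kCell_0_13 : kCellOK 0 13 (fun _ _ => .leaf 0) = true := by decide +kernel

theorem kCell_2_2 : kCellOK 2 2 (fun _ _ => .leaf 0) = true := by decide +kernel

theorem kCell_3_5 : kCellOK 3 5 (fun _ _ => .leaf 0) = true := by decide +kernel

theorem kCell_4_9 : kCellOK 4 9 (fun _ _ => .leaf 0) = true := by decide +kernel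

theorem kCell_6_6 : kCellOK 6 6 (fun _ _ => .leaf 0) = true := by decide +kernel

theorem kCell_7_13 : kCellOK 7 13 (fun _ _ => .leaf 0) = true := by decide +kernel

theorem kCell_10_12 : kCellOK 10 12 (fun _ _ => .leaf 0) = true := by decide +kernel

end Vale.Agent.P154.Ferro4
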